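import Vale.Agent.P124.CompactPerturbation

/-!
# P124: a Lipschitz isomorphism with compact nonlinear part yields a linear isomorphism
-/

open Metric

namespace Vale.Agent.Results.P124.CompactNonlinearPart

theorem result {X Y : Type} [NormedAddCommGroup X] [NormedSpace ℝ X] [CompleteSpace X]
    [NormedAddCommGroup Y] [NormedSpace ℝ Y] [CompleteSpace Y] (f : X → Y)
    (hf : Function.Bijective f)
    (hbi : ∃ c C : ℝ, 0 < c ∧ ∀ x x' : X,
      c * ‖x - x'‖ ≤ ‖f x - f x'‖ ∧ ‖f x - f x'‖ ≤ C * ‖x - x'‖)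
    (T : X →L[ℝ] Y)
    (hK : ∀ R : ℝ, IsCompact (closure ((fun x => f x - T x) '' closedBall 0 R))) :
    Nonempty (X ≃L[ℝ] Y) := by
  obtain ⟨c, C, hc, h⟩ := hbi
  exact Vale.Agent.P124.linearIso_of_compact_nonlinear f hf hc (fun x x' => (h x x').1)
    (fun x x' => (h x x').2) T
    fun R => ⟨_, hK R, fun x hx => subset_closure (Set.mem_image_of_mem _ hx)⟩

end Vale.Agent.Results.P124.CompactNonlinearPart
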